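import Vale.Agent.P181.O2.H457.Uni
import Vale.Agent.P181.DX.H924.UniY
import Vale.Agent.P181.DX.H556.SecA
import Vale.Agent.P181.HO.H207.All

set_option autoImplicit false

/-!
# P181: the theorem for all `a ≤ b` and all `λ` with `P w ≤ b ^ 2`, from the theorem for few cells
below row two
-/

namespace Vale.Agent.P181.O2.H457

open Vale.Agent.P181.T4 (ex low)
open Vale.Agent.P181.H280 (plethMult)
open Vale.Agent.P181.PL
open Vale.Agent.P181.DX.X924 (DiagW TwiceS Alt few_all UniY)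

/-- Few cells below row two, every `a ≤ b`. -/
def SmallD2 : Prop := ∃ (C : ℝ) (c : ℕ), 1 ≤ C ∧ ∀ a b : ℕ, a ≤ b →
  ∀ (n : ℕ) (lam : Fin n → ℕ), 1000 * dn lam 2 ≤ a →
  C * (1 + Real.log a) ^ c * (dn lam 1 : ℝ) ≤ (a : ℝ) ^ 2 →
  plethMult a b n lam ≤ plethMult b a n lam

theorem small2_of_d2 (h : SmallD2) : Small2 := by
  obtain ⟨C, c, hC, h⟩ := h
  refine ⟨C + 1000, c, by linarith, fun a b hab n lam _ _ hw hD => ?_⟩
  have hL0 : 0 ≤ Real.log a := Real.log_natCast_nonneg a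
  have hL1 : 1 ≤ 1 + Real.log (a : ℝ) := by linarith
  have hw0 : (0 : ℝ) ≤ (dn lam 1 : ℝ) := Nat.cast_nonneg _
  have hD0 : (0 : ℝ) ≤ (dn lam 2 : ℝ) := Nat.cast_nonneg _
  apply h a b hab.le n lam
  · have h1 : ((1000 * dn lam 2 : ℕ) : ℝ) ≤ (a : ℝ) := by
      rw [Nat.cast_mul]
      refine le_trans (mul_le_mul_of_nonneg_right ?_ hD0) hD
      norm_num
      linarith
    exact Nat.cast_le.1 h1
  · exact (absorb (by linarith) (by linarith) le_rfl hL1 hw0).trans hw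

/-- Few cells below row two and `UniY` and the polylog theorem. -/
theorem uniAll_of_d2 (hS : SmallD2) (hY : UniY) (hP : PolyS) : DX.H556.UniAll := by
  obtain ⟨C1, c1, hC1, h1⟩ := hP
  obtain ⟨C2, c2, hC2, h2⟩ := hS
  obtain ⟨C3, c3, hC3, h3⟩ := hY
  have hC11 : 1 ≤ (1 + C1) ^ 2 := one_le_pow₀ (by linarith)
  obtain ⟨C', hC'⟩ : ∃ C' : ℝ, C' = C2 + 1000000 * C3 := ⟨_, rfl⟩
  have hC'1 : 1 ≤ C' := by linarith
  refine ⟨C' * (1 + C1) ^ 2, (c2 + c3) + 2 * c1, one_le_mul_of_one_le_of_one_le hC'1 hC11,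
    fun a b hab n lam hw => ?_⟩
  have hL0 : 0 ≤ Real.log a := Real.log_natCast_nonneg a
  have hL1 : 1 ≤ 1 + Real.log (a : ℝ) := by linarith
  have hw0 : (0 : ℝ) ≤ (dn lam 1 : ℝ) := Nat.cast_nonneg _
  have hD0 : (0 : ℝ) ≤ (dn lam 2 : ℝ) := Nat.cast_nonneg _
  have ha0 : (0 : ℝ) ≤ a := Nat.cast_nonneg _
  have hC'p : C' ≤ C' * (1 + C1) ^ 2 := le_mul_of_one_le_right (by linarith) hC11
  rcases le_or_gt (C1 * a * (1 + Real.log a) ^ c1) (b : ℝ) with hb | hb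
  · exact h1 a b hb n lam
  have hwa : C' * (1 + Real.log a) ^ (c2 + c3) * (dn lam 1 : ℝ) ≤ (a : ℝ) ^ 2 :=
    small_w hC1 hL1 ha0 (Nat.cast_nonneg _) hb hw
  have e3 : C3 * (1 + Real.log a) ^ c3 * (dn lam 1 : ℝ) ≤
      C' * (1 + C1) ^ 2 * (1 + Real.log a) ^ ((c2 + c3) + 2 * c1) * (dn lam 1 : ℝ) :=
    absorb (by linarith) (by linarith) (by omega) hL1 hw0
  rcases le_or_gt (1000 * dn lam 2) a with h4 | h4
  · apply h2 a b hab n lam h4
    exact (absorb (by linarith) (by linarith) (by omega) hL1 hw0).trans hwa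
  · apply h3 a b hab n lam
    right
    right
    right
    refine ⟨e3.trans hw, ?_⟩
    have h5 : (a : ℝ) ≤ 1000 * (dn lam 2 : ℝ) := by
      have : ((a : ℕ) : ℝ) ≤ ((1000 * dn lam 2 : ℕ) : ℝ) := Nat.cast_le.2 h4.le
      rw [Nat.cast_mul] at this
      simpa using this
    have h6 : (a : ℝ) ^ 2 ≤ 1000000 * (dn lam 2 : ℝ) ^ 2 := by
      calc (a : ℝ) ^ 2 ≤ (1000 * (dn lam 2 : ℝ)) ^ 2 := pow_le_pow_left₀ ha0 h5 2
        _ = 1000000 * (dn lam 2 : ℝ) ^ 2 := by ring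
    have h7 : 1000000 * (C3 * (1 + Real.log a) ^ c3 * (dn lam 1 : ℝ)) ≤ (a : ℝ) ^ 2 := by
      calc 1000000 * (C3 * (1 + Real.log a) ^ c3 * (dn lam 1 : ℝ)) =
            1000000 * C3 * (1 + Real.log a) ^ c3 * (dn lam 1 : ℝ) := by ring
        _ ≤ C' * (1 + Real.log a) ^ (c2 + c3) * (dn lam 1 : ℝ) :=
            absorb (by linarith) (by linarith) (by omega) hL1 hw0
        _ ≤ (a : ℝ) ^ 2 := hwa
    linarith

/-- **The union from `Small2`.** -/
theorem uniAllc_of_small2 (hS : Small2) : DX.H556.UniAll :=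
  uniAll DX.diagWc HO.diagHc TW.twice hS PLX.polyS

/-- **The union from `SmallD2`.** -/
theorem uniAllc_of_d2 (hS : SmallD2) : DX.H556.UniAll :=
  uniAllc_of_small2 (small2_of_d2 hS)

/-- DX, HO, TW together, no hypothesis. -/
theorem sqHc : SqH := sqH_of DX.diagWc HO.diagHc TW.twice

/-- DX, HO, TW, PolyS together, no hypothesis. -/
theorem uniHc : UniH := uniH_of PLX.polyS sqHc

/-- `P w ≤ (b - a) ^ 2`, no other condition, no hypothesis. -/
theorem gapHc : GapH := gapH_of uniHc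

end Vale.Agent.P181.O2.H457
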