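import Vale.Agent.P181.DX.H924.Uni
import Vale.Agent.P181.HO.Defs

set_option autoImplicit false

/-!
# P181: the union of DX, HO, TW, O2 and the polylog theorem

`w = λ_2 + λ_3 + ⋯`, `D = λ_3 + λ_4 + ⋯`, `P = C (1 + log a) ^ c`. From `DX.DiagW`, `HO.DiagH`,
`TwiceS`, `PolyS`: Foulkes' inequality for all `a ≤ b` and all `λ` with `P w ≤ b ^ 2` and
(`w < 2 a` or `P w ≤ D ^ 2` or `D ≤ b - a + 1`). With the theorem for few cells below row two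
(`Small2`): for all `a ≤ b` and all `λ` with `P w ≤ b ^ 2`.
-/

namespace Vale.Agent.P181.O2.H457

open Vale.Agent.P181.T4 (ex low)
open Vale.Agent.P181.H280 (plethMult)
open Vale.Agent.P181.PL
open Vale.Agent.P181.DX.X924 (DiagW TwiceS Alt few_all)

/-- **(O2)** few cells below row two, `w ≥ 2 a`, every `a < b`. -/
def Small2 : Prop := ∃ (C : ℝ) (c : ℕ), 1 ≤ C ∧ ∀ a b : ℕ, a < b →
  ∀ (n : ℕ) (lam : Fin n → ℕ), 2 * a ≤ dn lam 1 → b + 1 < a + dn lam 2 →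
  C * (1 + Real.log a) ^ c * (dn lam 1 : ℝ) ≤ (a : ℝ) ^ 2 → C * (dn lam 2 : ℝ) ≤ a →
  plethMult a b n lam ≤ plethMult b a n lam

/-- DX, HO and TW together. -/
def SqH : Prop := ∃ (C : ℝ) (c : ℕ), 1 ≤ C ∧ ∀ a b : ℕ, a ≤ b →
  ∀ (n : ℕ) (lam : Fin n → ℕ),
  (dn lam 1 < 2 * a ∨ C * (1 + Real.log a) ^ c * (dn lam 1 : ℝ) ≤ (dn lam 2 : ℝ) ^ 2 ∨
    a + dn lam 2 ≤ b + 1) →
  C * (1 + Real.log a) ^ c * (dn lam 1 : ℝ) ≤ (a : ℝ) ^ 2 →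
  plethMult a b n lam ≤ plethMult b a n lam

/-- DX, HO, TW and the polylog theorem together. -/
def UniH : Prop := ∃ (C : ℝ) (c : ℕ), 1 ≤ C ∧ ∀ a b : ℕ, a ≤ b →
  ∀ (n : ℕ) (lam : Fin n → ℕ),
  (dn lam 1 < 2 * a ∨ C * (1 + Real.log a) ^ c * (dn lam 1 : ℝ) ≤ (dn lam 2 : ℝ) ^ 2 ∨
    a + dn lam 2 ≤ b + 1) →
  C * (1 + Real.log a) ^ c * (dn lam 1 : ℝ) ≤ (b : ℝ) ^ 2 →
  plethMult a b n lam ≤ plethMult b a n lam

/-- `P w ≤ (b - a) ^ 2`, no other condition. -/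
def GapH : Prop := ∃ (C : ℝ) (c : ℕ), 1 ≤ C ∧ ∀ a b : ℕ, a ≤ b →
  ∀ (n : ℕ) (lam : Fin n → ℕ),
  C * (1 + Real.log a) ^ c * (dn lam 1 : ℝ) ≤ ((b : ℝ) - a) ^ 2 →
  plethMult a b n lam ≤ plethMult b a n lam

/-- `P w ≤ a ^ 2`, no other condition. -/
def AllS : Prop := ∃ (C : ℝ) (c : ℕ), 1 ≤ C ∧ ∀ a b : ℕ, a ≤ b →
  ∀ (n : ℕ) (lam : Fin n → ℕ), C * (1 + Real.log a) ^ c * (dn lam 1 : ℝ) ≤ (a : ℝ) ^ 2 →
  plethMult a b n lam ≤ plethMult b a n lam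

/-- **The union.** Every `a ≤ b` and every `λ` with `P w ≤ b ^ 2`. -/
def UniAll : Prop := ∃ (C : ℝ) (c : ℕ), 1 ≤ C ∧ ∀ a b : ℕ, a ≤ b →
  ∀ (n : ℕ) (lam : Fin n → ℕ), C * (1 + Real.log a) ^ c * (dn lam 1 : ℝ) ≤ (b : ℝ) ^ 2 →
  plethMult a b n lam ≤ plethMult b a n lam

/-- Comparison of two constants. -/
lemma absorb {C0 C L w : ℝ} {c0 c : ℕ} (h0 : 0 ≤ C0) (h1 : C0 ≤ C) (hc : c0 ≤ c) (hL : 1 ≤ L)
    (hw : 0 ≤ w) : C0 * L ^ c0 * w ≤ C * L ^ c * w := by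
  apply mul_le_mul_of_nonneg_right _ hw
  exact mul_le_mul h1 (pow_le_pow_right₀ hL hc) (by positivity) (h0.trans h1)

/-- If `b` is not large against `a`, then `w` is small against `a ^ 2`. -/
lemma small_w {C1 C' L a b w : ℝ} {c1 c' : ℕ} (hC1 : 0 < C1) (hL : 1 ≤ L)
    (ha : 0 ≤ a) (hb : 0 ≤ b) (hbs : b < C1 * a * L ^ c1)
    (h : C' * (1 + C1) ^ 2 * L ^ (c' + 2 * c1) * w ≤ b ^ 2) : C' * L ^ c' * w ≤ a ^ 2 := by
  have h1 : b ^ 2 ≤ ((1 + C1) * L ^ c1 * a) ^ 2 := by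
    apply pow_le_pow_left₀ hb
    have h2 : 0 ≤ L ^ c1 * a := by positivity
    nlinarith
  have h3 : (1 + C1) ^ 2 * L ^ (2 * c1) * (C' * L ^ c' * w) ≤
      (1 + C1) ^ 2 * L ^ (2 * c1) * a ^ 2 := by
    calc (1 + C1) ^ 2 * L ^ (2 * c1) * (C' * L ^ c' * w) =
          C' * (1 + C1) ^ 2 * L ^ (c' + 2 * c1) * w := by
          rw [pow_add]
          ring
      _ ≤ b ^ 2 := h
      _ ≤ ((1 + C1) * L ^ c1 * a) ^ 2 := h1
      _ = (1 + C1) ^ 2 * L ^ (2 * c1) * a ^ 2 := by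
          rw [mul_pow, mul_pow, ← pow_mul, mul_comm c1 2]
  have h4 : 0 < (1 + C1) ^ 2 * L ^ (2 * c1) := by positivity
  exact le_of_mul_le_mul_left h3 h4

theorem sqH_of (hW : DiagW) (hH : HO.DiagH) (hT : TwiceS) : SqH := by
  obtain ⟨C1, c1, hC1, h1⟩ := hW
  obtain ⟨C2, c2, hC2, h2⟩ := hH C1 c1
  refine ⟨C1 + C2, c1 + c2, by linarith, fun a b hab n lam hD hw => ?_⟩
  have hL0 : 0 ≤ Real.log a := Real.log_natCast_nonneg a
  have hL1 : 1 ≤ 1 + Real.log (a : ℝ) := by linarith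
  have hw0 : (0 : ℝ) ≤ (dn lam 1 : ℝ) := Nat.cast_nonneg _
  have e1 : C1 * (1 + Real.log a) ^ c1 * (dn lam 1 : ℝ) ≤
      (C1 + C2) * (1 + Real.log a) ^ (c1 + c2) * (dn lam 1 : ℝ) :=
    absorb hC1.le (by linarith) (by omega) hL1 hw0
  have e2 : C2 * (1 + Real.log a) ^ c2 * (dn lam 1 : ℝ) ≤
      (C1 + C2) * (1 + Real.log a) ^ (c1 + c2) * (dn lam 1 : ℝ) :=
    absorb (by linarith) (by linarith) (by omega) hL1 hw0
  rcases Nat.lt_or_ge (dn lam 1) (2 * a) with h3 | h3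
  · exact hT a b hab n lam h3.le (Or.inl h3)
  rcases hD with h4 | h4 | h4
  · omega
  · rcases le_total (C1 * (1 + Real.log a) ^ c1 * (dn lam 1 : ℝ))
      (((dn lam 1 : ℝ) - a - ex lam 2) ^ 2) with h5 | h5
    · apply h1 a b hab n lam
      exact Or.inr ⟨h3, e1.trans hw, Or.inr ⟨e1.trans h4, h5⟩⟩
    · exact h2 a b hab n lam h3 h5 (e2.trans hw)
  · exact few_all hab lam (by omega)

theorem uniH_of (hP : PolyS) (hS : SqH) : UniH := by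
  obtain ⟨C1, c1, hC1, h1⟩ := hP
  obtain ⟨C2, c2, hC2, h2⟩ := hS
  have hC11 : 1 ≤ (1 + C1) ^ 2 := one_le_pow₀ (by linarith)
  refine ⟨C2 * (1 + C1) ^ 2, c2 + 2 * c1, one_le_mul_of_one_le_of_one_le hC2 hC11,
    fun a b hab n lam hD hw => ?_⟩
  have hL0 : 0 ≤ Real.log a := Real.log_natCast_nonneg a
  have hL1 : 1 ≤ 1 + Real.log (a : ℝ) := by linarith
  have hw0 : (0 : ℝ) ≤ (dn lam 1 : ℝ) := Nat.cast_nonneg _
  rcases le_or_gt (C1 * a * (1 + Real.log a) ^ c1) (b : ℝ) with hb | hb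
  · exact h1 a b hb n lam
  have e1 : C2 * (1 + Real.log a) ^ c2 * (dn lam 1 : ℝ) ≤
      C2 * (1 + C1) ^ 2 * (1 + Real.log a) ^ (c2 + 2 * c1) * (dn lam 1 : ℝ) :=
    absorb (by linarith) (le_mul_of_one_le_right (by linarith) hC11) (by omega) hL1 hw0
  refine h2 a b hab n lam ?_ (small_w hC1 hL1 (Nat.cast_nonneg _) (Nat.cast_nonneg _) hb hw)
  rcases hD with h3 | h3 | h3
  · exact Or.inl h3
  · exact Or.inr (Or.inl (e1.trans h3))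
  · exact Or.inr (Or.inr h3)

theorem gapH_of (hU : UniH) : GapH := by
  obtain ⟨C, c, hC, h⟩ := hU
  refine ⟨C, c, hC, fun a b hab n lam hw => ?_⟩
  have hab' : (a : ℝ) ≤ b := by exact_mod_cast hab
  have ha0 : (0 : ℝ) ≤ a := Nat.cast_nonneg _
  have hba : (0 : ℝ) ≤ (b : ℝ) - a := by linarith
  refine h a b hab n lam ?_ (hw.trans (pow_le_pow_left₀ hba (by linarith) 2))
  rcases Nat.lt_or_ge (b + 1) (a + dn lam 2) with h6 | h6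
  swap
  · exact Or.inr (Or.inr h6)
  right
  left
  refine hw.trans (pow_le_pow_left₀ hba ?_ 2)
  have h7 : (b : ℝ) + 1 < a + dn lam 2 := by exact_mod_cast h6
  linarith

theorem allS_of (hH : SqH) (hS : Small2) : AllS := by
  obtain ⟨C1, c1, hC1, h1⟩ := hH
  obtain ⟨C2, c2, hC2, h2⟩ := hS
  have hC22 : 1 ≤ C2 ^ 2 := one_le_pow₀ hC2
  have hC12 : C1 ≤ C1 * C2 ^ 2 := le_mul_of_one_le_right (by linarith) hC22
  refine ⟨C1 * C2 ^ 2 + C2, c1 + c2, by linarith, fun a b hab n lam hw => ?_⟩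
  have hL0 : 0 ≤ Real.log a := Real.log_natCast_nonneg a
  have hL1 : 1 ≤ 1 + Real.log (a : ℝ) := by linarith
  have hw0 : (0 : ℝ) ≤ (dn lam 1 : ℝ) := Nat.cast_nonneg _
  have ha0 : (0 : ℝ) ≤ a := Nat.cast_nonneg _
  have e1 : C1 * (1 + Real.log a) ^ c1 * (dn lam 1 : ℝ) ≤
      (C1 * C2 ^ 2 + C2) * (1 + Real.log a) ^ (c1 + c2) * (dn lam 1 : ℝ) :=
    absorb (by linarith) (by linarith) (by omega) hL1 hw0
  have e2 : C2 * (1 + Real.log a) ^ c2 * (dn lam 1 : ℝ) ≤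
      (C1 * C2 ^ 2 + C2) * (1 + Real.log a) ^ (c1 + c2) * (dn lam 1 : ℝ) :=
    absorb (by linarith) (by linarith) (by omega) hL1 hw0
  have e3 : C1 * C2 ^ 2 * (1 + Real.log a) ^ c1 * (dn lam 1 : ℝ) ≤
      (C1 * C2 ^ 2 + C2) * (1 + Real.log a) ^ (c1 + c2) * (dn lam 1 : ℝ) :=
    absorb (by linarith) (by linarith) (by omega) hL1 hw0
  rcases hab.eq_or_lt with rfl | hab'
  · exact le_rfl
  rcases Nat.lt_or_ge (dn lam 1) (2 * a) with h3 | h3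
  · exact h1 a b hab n lam (Or.inl h3) (e1.trans hw)
  rcases Nat.lt_or_ge (b + 1) (a + dn lam 2) with h4 | h4
  swap
  · exact h1 a b hab n lam (Or.inr (Or.inr h4)) (e1.trans hw)
  rcases le_total (C1 * (1 + Real.log a) ^ c1 * (dn lam 1 : ℝ)) ((dn lam 2 : ℝ) ^ 2)
    with h5 | h5
  · exact h1 a b hab n lam (Or.inr (Or.inl h5)) (e1.trans hw)
  refine h2 a b hab' n lam h3 h4 (e2.trans hw) ?_
  have h6 : (C2 * (dn lam 2 : ℝ)) ^ 2 ≤ (a : ℝ) ^ 2 := by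
    calc (C2 * (dn lam 2 : ℝ)) ^ 2 = C2 ^ 2 * (dn lam 2 : ℝ) ^ 2 := by ring
      _ ≤ C2 ^ 2 * (C1 * (1 + Real.log a) ^ c1 * (dn lam 1 : ℝ)) :=
          mul_le_mul_of_nonneg_left h5 (by positivity)
      _ = C1 * C2 ^ 2 * (1 + Real.log a) ^ c1 * (dn lam 1 : ℝ) := by ring
      _ ≤ (a : ℝ) ^ 2 := e3.trans hw
  exact abs_le_of_sq_le_sq' h6 ha0 |>.2

theorem uniAll_of (hP : PolyS) (hA : AllS) : UniAll := by
  obtain ⟨C1, c1, hC1, h1⟩ := hP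
  obtain ⟨C2, c2, hC2, h2⟩ := hA
  have hC11 : 1 ≤ (1 + C1) ^ 2 := one_le_pow₀ (by linarith)
  refine ⟨C2 * (1 + C1) ^ 2, c2 + 2 * c1, one_le_mul_of_one_le_of_one_le hC2 hC11,
    fun a b hab n lam hw => ?_⟩
  have hL0 : 0 ≤ Real.log a := Real.log_natCast_nonneg a
  have hL1 : 1 ≤ 1 + Real.log (a : ℝ) := by linarith
  rcases le_or_gt (C1 * a * (1 + Real.log a) ^ c1) (b : ℝ) with hb | hb
  · exact h1 a b hb n lam
  · exact h2 a b hab n lam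
      (small_w hC1 hL1 (Nat.cast_nonneg _) (Nat.cast_nonneg _) hb hw)

/-- **The union**, from the five theorems. -/
theorem uniAll (hW : DiagW) (hH : HO.DiagH) (hT : TwiceS) (hS : Small2) (hP : PolyS) : UniAll :=
  uniAll_of hP (allS_of (sqH_of hW hH hT) hS)

end Vale.Agent.P181.O2.H457
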